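import Mathlib.Topology.Compactness.LocallyCompact
import Mathlib.Topology.Separation.Hausdorff
import Mathlib.Topology.MetricSpace.Pseudo.Real
import Mathlib.Topology.Order.Compact
import Mathlib.Topology.Instances.Real.Lemmas
import Mathlib.Algebra.Module.Submodule.Lattice
import Mathlib.LinearAlgebra.Span.Basic

/-!
# Soft complexes of modules with germs: local to global principles

`G i x` is the module of the elements of degree `i` whose germ at `x` vanishes.
-/

namespace Vale.Agent.P275SO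

open Set Topology

variable {k : Type*} [Ring k] {X : Type*} [TopologicalSpace X]

/-- The elements that vanish near the set `B`. -/
def N {M : Type*} [AddCommGroup M] [Module k M] (G : X → Submodule k M) (B : Set X) :
    Submodule k M := ⨅ x ∈ B, G x

section N
variable {M : Type*} [AddCommGroup M] [Module k M] {G : X → Submodule k M} {B B' : Set X} {s : M}

omit [TopologicalSpace X] in
theorem mem_N : s ∈ N G B ↔ ∀ x ∈ B, s ∈ G x := by simp [N, Submodule.mem_iInf]

omit [TopologicalSpace X] in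
theorem N_anti (h : B ⊆ B') (hs : s ∈ N G B') : s ∈ N G B :=
  mem_N.2 fun x hx => mem_N.1 hs x (h hx)

omit [TopologicalSpace X] in
theorem mem_N_union : s ∈ N G (B ∪ B') ↔ s ∈ N G B ∧ s ∈ N G B' := by
  simp only [mem_N, mem_union, or_imp, forall_and]

omit [TopologicalSpace X] in
@[simp] theorem mem_N_empty : s ∈ N G ∅ := mem_N.2 fun _ h => h.elim

omit [TopologicalSpace X] in
@[simp] theorem mem_N_singleton {x : X} : s ∈ N G {x} ↔ s ∈ G x := by simp [mem_N]

end N

/-- Elements that vanish near `B ∩ B'` are sums of elements that vanish near `B` or near `B'`. -/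
def Spl {M : Type*} [AddCommGroup M] [Module k M] (G : X → Submodule k M) : Prop :=
  ∀ B B' : Set X, IsCompact B → IsCompact B' → ∀ s ∈ N G (B ∩ B'),
    ∃ a ∈ N G B, ∃ b ∈ N G B', s = a + b

variable {M : ℤ → Type*} [∀ i, AddCommGroup (M i)] [∀ i, Module k (M i)]

/-- A soft complex with germs and an endomorphism that is idempotent up to homotopy. -/
structure Dat (d : ∀ i j, M i →ₗ[k] M j) (G : ∀ i, X → Submodule k (M i))
    (p : ∀ i, M i →ₗ[k] M i) : Prop where
  op : ∀ i s, IsOpen {x | s ∈ G i x}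
  spl : ∀ i, Spl (G i)
  dG : ∀ i j x s, s ∈ G i x → d i j s ∈ G j x
  pG : ∀ i x s, s ∈ G i x → p i s ∈ G i x
  dd : ∀ i j l s, d j l (d i j s) = 0
  pd : ∀ i j s, p j (d i j s) = d i j (p i s)
  idem : ∃ h : ∀ i j, M i →ₗ[k] M j, (∀ i j x s, s ∈ G i x → h i j s ∈ G j x) ∧
    ∀ i j l, i + 1 = j → j + 1 = l → ∀ s, p j s - p j (p j s) = d i j (h j i s) + h l j (d j l s)

/-- The element `s` is a boundary near `C`, relative to `A`. -/
def Bd (d : ∀ i j, M i →ₗ[k] M j) (G : ∀ i, X → Submodule k (M i)) (A C : Set X) (i : ℤ) {j : ℤ}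
    (s : M j) : Prop := ∃ t ∈ N (G i) (A ∩ C), s - d i j t ∈ N (G j) C

/-- The endomorphism `p` kills the cohomology in degree `j` of the sections near `C` that vanish
near `A ∩ C`. -/
def Van (d : ∀ i j, M i →ₗ[k] M j) (G : ∀ i, X → Submodule k (M i)) (p : ∀ i, M i →ₗ[k] M i)
    (A C : Set X) (j : ℤ) : Prop :=
  ∀ i l, i + 1 = j → j + 1 = l → ∀ s ∈ N (G j) (A ∩ C), d j l s ∈ N (G l) C → Bd d G A C i (p j s)

variable {d : ∀ i j, M i →ₗ[k] M j} {G : ∀ i, X → Submodule k (M i)} {p : ∀ i, M i →ₗ[k] M i}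
  {A C C' : Set X} {i j l : ℤ}

omit [TopologicalSpace X] in
theorem Bd.mono {s : M j} (h : Bd d G A C i s) (hC : C' ⊆ C) : Bd d G A C' i s :=
  let ⟨t, h1, h2⟩ := h
  ⟨t, N_anti (inter_subset_inter_right _ hC) h1, N_anti hC h2⟩

omit [TopologicalSpace X] in
theorem Bd.empty (s : M j) : Bd d G A ∅ i s := ⟨0, zero_mem _, mem_N_empty⟩

theorem Dat.dN (h : Dat d G p) {s : M i} (hs : s ∈ N (G i) C) : d i j s ∈ N (G j) C :=
  mem_N.2 fun x hx => h.dG _ _ _ _ (mem_N.1 hs x hx)

theorem Dat.pN (h : Dat d G p) {s : M i} (hs : s ∈ N (G i) C) : p i s ∈ N (G i) C :=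
  mem_N.2 fun x hx => h.pG _ _ _ (mem_N.1 hs x hx)

/-- Continuity: a boundary near `C` is a boundary near a neighbourhood of `C`. -/
theorem Dat.nhds (h : Dat d G p) (hA : IsClosed A) {s : M j} (hs : Bd d G A C i s) :
    ∃ U, IsOpen U ∧ C ⊆ U ∧ Bd d G A U i s := by
  obtain ⟨t, h1, h2⟩ := hs
  refine ⟨({x | t ∈ G i x} ∪ Aᶜ) ∩ {x | s - d i j t ∈ G j x},
    ((h.op i t).union hA.isOpen_compl).inter (h.op j _), fun x hx => ⟨?_, mem_N.1 h2 x hx⟩, t,
    mem_N.2 fun x hx => hx.2.1.resolve_right fun a => a hx.1, mem_N.2 fun x hx => hx.2⟩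
  by_cases a : x ∈ A
  · exact Or.inl (mem_N.1 h1 x ⟨a, hx⟩)
  · exact Or.inr a

/-- Mayer-Vietoris. -/
theorem Dat.mv (h : Dat d G p) (hA : IsClosed A) (hC : IsCompact C) (hC' : IsCompact C')
    (hij : i + 1 = j) (hjl : j + 1 = l) (hv : Van d G p A (C ∩ C') i) {s : M j}
    (hs : s ∈ N (G j) (A ∩ (C ∪ C'))) (hd : d j l s ∈ N (G l) (C ∪ C'))
    (h1 : Bd d G A C i (p j s)) (h2 : Bd d G A C' i (p j s)) : Bd d G A (C ∪ C') i (p j s) := by
  obtain ⟨t1, a1, b1⟩ := h1
  obtain ⟨t2, a2, b2⟩ := h2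
  obtain ⟨w, a3, b3⟩ := hv (i - 1) j (by omega) hij (t1 - t2)
    (sub_mem (N_anti (inter_subset_inter_right _ inter_subset_left) a1)
      (N_anti (inter_subset_inter_right _ inter_subset_right) a2)) (by
      have := sub_mem (N_anti inter_subset_right b2) (N_anti (inter_subset_left (t := C')) b1)
      rwa [show p j s - d i j t2 - (p j s - d i j t1) = d i j (t1 - t2) by rw [map_sub]; abel]
        at this)
  obtain ⟨w1, c1, w2, c2, rfl⟩ := h.spl _ (A ∩ C) (A ∩ C') (hC.inter_left hA) (hC'.inter_left hA) w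
    (by rwa [← inter_inter_distrib_left])
  obtain ⟨v1, e1, v2, e2, e⟩ := h.spl _ C C' hC hC' _ b3
  obtain ⟨H, f1, f2⟩ := h.idem
  have HN : ∀ {a b : ℤ} {B : Set X} {s : M a}, s ∈ N (G a) B → H a b s ∈ N (G b) B :=
    fun hs => mem_N.2 fun x hx => f1 _ _ _ _ (mem_N.1 hs x hx)
  have e' : p i t1 - d (i - 1) i w1 - v1 = p i t2 + d (i - 1) i w2 + v2 := by
    rw [map_sub, map_add] at e
    have : p i t1 = p i t2 + (d (i - 1) i w1 + d (i - 1) i w2) + (v1 + v2) := by rw [← e]; abel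
    rw [this]; abel
  have g := f2 i j l hij hjl s
  refine ⟨p i t1 - d (i - 1) i w1 - v1 + H j i s, add_mem ?_ (HN hs), ?_⟩
  · rw [inter_union_distrib_left, mem_N_union]
    refine ⟨sub_mem (sub_mem (h.pN a1) (h.dN c1)) (N_anti inter_subset_right e1), ?_⟩
    rw [e']
    exact add_mem (add_mem (h.pN a2) (h.dN c2)) (N_anti inter_subset_right e2)
  · have key : ∀ u : M i, p j s - d i j (u + H j i s) =
        p j (p j s) - d i j u + H l j (d j l s) := fun u => by
      rw [map_add, show d i j (H j i s) = p j s - p j (p j s) - H l j (d j l s) by rw [g]; abel]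
      abel
    rw [key]
    refine add_mem (mem_N_union.2 ⟨?_, ?_⟩) (HN hd)
    · have := add_mem (h.pN b1) (h.dN (j := j) e1)
      rwa [show p j (p j s - d i j t1) + d i j v1 =
        p j (p j s) - d i j (p i t1 - d (i - 1) i w1 - v1) by
          simp only [map_sub, h.pd, h.dd]; abel] at this
    · have := sub_mem (h.pN b2) (h.dN (j := j) e2)
      rwa [show p j (p j s - d i j t2) - d i j v2 =
        p j (p j s) - d i j (p i t1 - d (i - 1) i w1 - v1) by
          rw [e']; simp only [map_sub, map_add, h.pd, h.dd]; abel] at this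

/-- One step of the local to global principle. -/
theorem Dat.step [T2Space X] [LocallyCompactSpace X] (h : Dat d G p) (hA : IsClosed A)
    (hC : IsCompact C) (hv : ∀ B ⊆ C, IsCompact B → Van d G p A B (j - 1))
    (hx : ∀ x ∈ C, x ∉ A → Van d G p A {x} j) : Van d G p A C j := by
  intro i l hij hjl s hs hd
  obtain rfl : i = j - 1 := by omega
  have : ∃ B, IsCompact B ∧ C ⊆ B ∧ Bd d G A (B ∩ C) (j - 1) (p j s) := by
    refine hC.induction_on (p := fun T => ∃ B, IsCompact B ∧ T ⊆ B ∧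
      Bd d G A (B ∩ C) (j - 1) (p j s)) ⟨∅, isCompact_empty, Subset.rfl, by
        rw [empty_inter]; exact Bd.empty _⟩
      (fun T T' a ⟨B, b1, b2, b3⟩ => ⟨B, b1, a.trans b2, b3⟩) ?_ ?_
    · rintro T T' ⟨B, b1, b2, b3⟩ ⟨B', c1, c2, c3⟩
      refine ⟨B ∪ B', b1.union c1, union_subset_union b2 c2, ?_⟩
      have a : B ∩ C ∪ B' ∩ C ⊆ C := union_subset inter_subset_right inter_subset_right
      rw [union_inter_distrib_right]
      exact h.mv hA (b1.inter hC) (c1.inter hC) hij hjl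
        (hv _ (inter_subset_left.trans inter_subset_right) ((b1.inter hC).inter (c1.inter hC)))
        (N_anti (inter_subset_inter_right _ a) hs) (N_anti a hd) b3 c3
    · intro x hxC
      have a : Bd d G A {x} (j - 1) (p j s) := by
        by_cases a : x ∈ A
        · exact ⟨0, zero_mem _, by simpa using h.pG _ _ _ (mem_N.1 hs x ⟨a, hxC⟩)⟩
        · have b : ({x} : Set X) ⊆ C := singleton_subset_iff.2 hxC
          exact hx x hxC a _ l hij hjl s (N_anti (inter_subset_inter_right _ b) hs) (N_anti b hd)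
      obtain ⟨U, u1, u2, u3⟩ := h.nhds hA a
      obtain ⟨B, b1, b2, b3⟩ := exists_compact_subset u1 (u2 rfl)
      exact ⟨B, mem_nhdsWithin_of_mem_nhds (mem_interior_iff_mem_nhds.1 b2), B, b1, Subset.rfl,
        u3.mono (inter_subset_left.trans b3)⟩
  obtain ⟨B, -, b2, b3⟩ := this
  rwa [inter_eq_right.2 b2] at b3

/-- **Local to global** for complexes that are bounded below. -/
theorem Dat.loc [T2Space X] [LocallyCompactSpace X] (h : Dat d G p) (hA : IsClosed A) {a n : ℤ}
    (ha : ∀ j < a, ∀ s : M j, s = 0) (hC : IsCompact C)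
    (hx : ∀ j ≤ n, ∀ x ∈ C, x ∉ A → Van d G p A {x} j) : ∀ j ≤ n, Van d G p A C j := by
  have z : ∀ j < a, ∀ B, Van d G p A B j := fun j hj B i l _ _ s _ _ =>
    ⟨0, zero_mem _, by rw [ha j hj (_ - _)]; exact zero_mem _⟩
  have : ∀ m : ℕ, a - 1 + m ≤ n → ∀ B ⊆ C, IsCompact B → Van d G p A B (a - 1 + m) := by
    intro m
    induction m with
    | zero => exact fun _ B _ _ => z _ (by simp) B
    | succ m ih =>
      intro hm B hB hB'
      push_cast at hm ⊢
      refine h.step hA hB' (fun B' u b => ?_) fun x u => hx _ hm x (hB u)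
      rw [show a - 1 + (m + 1) - 1 = a - 1 + m by ring]
      exact ih (by omega) B' (u.trans hB) b
  intro j hj
  rcases lt_or_ge j a with b | b
  · exact z j b C
  · obtain ⟨m, rfl⟩ : ∃ m : ℕ, j = a - 1 + m := ⟨(j - (a - 1)).toNat, by omega⟩
    exact this m hj C Subset.rfl hC

/-- Bisection along one continuous function. -/
theorem Dat.bisect [T2Space X] (h : Dat d G p) (hA : IsClosed A) (hC : IsCompact C) {g : X → ℝ}
    (hg : ContinuousOn g C) (h1 : ∀ r, Van d G p A (C ∩ g ⁻¹' {r}) (j - 1))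
    (h2 : ∀ r, Van d G p A (C ∩ g ⁻¹' {r}) j) : Van d G p A C j := by
  intro i l hij hjl s hs hd
  obtain rfl : i = j - 1 := by omega
  have cl : ∀ {T : Set ℝ}, IsClosed T → IsCompact (C ∩ g ⁻¹' T) := fun hT =>
    hC.of_isClosed_subset (hg.preimage_isClosed_of_isClosed hC.isClosed hT) inter_subset_left
  have loc : ∀ r, ∃ ε > 0, Bd d G A (C ∩ g ⁻¹' Icc (r - ε) (r + ε)) (j - 1) (p j s) := by
    intro r
    obtain ⟨U, u1, u2, u3⟩ := h.nhds hA (h2 r _ l hij hjl s
      (N_anti (inter_subset_inter_right _ inter_subset_left) hs) (N_anti inter_subset_left hd))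
    have c : IsClosed (g '' (C \ U)) :=
      ((hC.diff u1).image_of_continuousOn (hg.mono sdiff_subset)).isClosed
    have c' : r ∈ (g '' (C \ U))ᶜ := by
      rintro ⟨x, hx, e⟩
      exact hx.2 (u2 ⟨hx.1, e⟩)
    obtain ⟨ε, e1, e2⟩ := Metric.isOpen_iff.1 c.isOpen_compl r c'
    refine ⟨ε / 2, by positivity, u3.mono fun x hx => ?_⟩
    by_contra a
    refine e2 (a := g x) ?_ ⟨x, ⟨hx.1, a⟩, rfl⟩
    rw [Real.ball_eq_Ioo]
    exact ⟨by linarith [hx.2.1], by linarith [hx.2.2]⟩
  obtain ⟨R, hR⟩ : ∃ R : ℝ, ∀ x ∈ C, g x ∈ Icc (-R) R := by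
    obtain ⟨R, hR⟩ := (hC.image_of_continuousOn hg).isBounded.subset_closedBall 0
    exact ⟨R, fun x hx => by simpa [Real.closedBall_eq_Icc] using hR ⟨x, hx, rfl⟩⟩
  have glue : ∀ a b : ℝ, Bd d G A (C ∩ g ⁻¹' Iic a) (j - 1) (p j s) →
      Bd d G A (C ∩ g ⁻¹' Icc a b) (j - 1) (p j s) →
      Bd d G A (C ∩ g ⁻¹' Iic b) (j - 1) (p j s) := by
    intro a b ha hb
    have u : C ∩ g ⁻¹' Iic a ∪ C ∩ g ⁻¹' Icc a b ⊆ C :=
      union_subset inter_subset_left inter_subset_left
    rcases le_or_gt a b with hab | hab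
    · refine (h.mv hA (cl isClosed_Iic) (cl isClosed_Icc) hij hjl ?_
        (N_anti (inter_subset_inter_right _ u) hs) (N_anti u hd) ha hb).mono fun x hx => ?_
      · have : C ∩ g ⁻¹' Iic a ∩ (C ∩ g ⁻¹' Icc a b) = C ∩ g ⁻¹' {a} := by
          ext x
          exact ⟨fun hx => ⟨hx.1.1, le_antisymm hx.1.2 hx.2.2.1⟩,
            fun hx => ⟨⟨hx.1, le_of_eq hx.2⟩, hx.1, ge_of_eq hx.2, (le_of_eq hx.2).trans hab⟩⟩
        rw [this]
        exact h1 a
      · rcases le_total (g x) a with c | c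
        · exact Or.inl ⟨hx.1, c⟩
        · exact Or.inr ⟨hx.1, c, hx.2⟩
    · exact ha.mono fun x hx => ⟨hx.1, le_trans hx.2 hab.le⟩
  have main : ∀ b : ℝ, Bd d G A (C ∩ g ⁻¹' Iic b) (j - 1) (p j s) := by
    by_contra hn
    push Not at hn
    have bd : ∀ b ∈ {b : ℝ | ¬ Bd d G A (C ∩ g ⁻¹' Iic b) (j - 1) (p j s)}, -R ≤ b := by
      intro b hb
      by_contra a
      refine hb ?_
      rw [show C ∩ g ⁻¹' Iic b = ∅ from eq_empty_of_forall_notMem fun x hx =>
        a ((hR x hx.1).1.trans hx.2)]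
      exact Bd.empty _
    obtain ⟨ε, e1, e2⟩ := loc (sInf {b : ℝ | ¬ Bd d G A (C ∩ g ⁻¹' Iic b) (j - 1) (p j s)})
    obtain ⟨b, b1, b2⟩ := Real.lt_sInf_add_pos (s := {b : ℝ |
      ¬ Bd d G A (C ∩ g ⁻¹' Iic b) (j - 1) (p j s)}) hn e1
    refine b1 ((glue _ _ ?_ e2).mono fun x hx => ⟨hx.1, le_trans hx.2 b2.le⟩)
    by_contra a
    have := csInf_le ⟨_, bd⟩ a
    linarith
  exact (main R).mono fun x hx => ⟨hx, (hR x hx).2⟩

/-- **Cohomological dimension**: vanishing above `c` on the compact fibres of a continuous map to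
`ℝ ^ n` gives vanishing above `c + n`. -/
theorem Dat.cd [T2Space X] (h : Dat d G p) (hA : IsClosed A) {c : ℤ} : ∀ (n : ℕ) {C : Set X},
    IsCompact C → ∀ g : X → Fin n → ℝ, ContinuousOn g C →
    (∀ r, ∀ j, c < j → Van d G p A (C ∩ g ⁻¹' {r}) j) → ∀ j, c + n < j → Van d G p A C j := by
  intro n
  induction n with
  | zero =>
    intro C _ g _ hv j hj
    have := hv 0 j (by simpa using hj)
    rwa [show C ∩ g ⁻¹' {0} = C from inter_eq_left.2 fun x _ => Subsingleton.elim _ _] at this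
  | succ n ih =>
    intro C hC g hg hv j hj
    push_cast at hj
    have g0 : ContinuousOn (fun x => g x 0) C := (continuous_apply 0).comp_continuousOn hg
    have key : ∀ r, ∀ j, c + n < j → Van d G p A (C ∩ (fun x => g x 0) ⁻¹' {r}) j := fun r =>
      ih (hC.of_isClosed_subset (g0.preimage_isClosed_of_isClosed hC.isClosed isClosed_singleton)
        inter_subset_left) (fun x => Fin.tail (g x))
        (continuousOn_pi.2 fun a => continuousOn_pi.1 (hg.mono inter_subset_left) a.succ)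
        fun r' j hj => by
        have := hv (Fin.cons r r') j hj
        rwa [show C ∩ g ⁻¹' {Fin.cons r r'} =
            C ∩ (fun x => g x 0) ⁻¹' {r} ∩ (fun x => Fin.tail (g x)) ⁻¹' {r'} from ?_] at this
        ext x
        simp only [mem_inter_iff, mem_preimage, mem_singleton_iff, and_assoc]
        refine and_congr_right fun _ => ⟨fun e => by simp [e], fun e => ?_⟩
        rw [← e.1, ← e.2, Fin.cons_self_tail]
    exact h.bisect hA hC g0 (fun r => key r _ (by omega)) fun r => key r _ (by omega)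

end Vale.Agent.P275SO
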