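import Vale.Agent.P275S.Basic
import Vale.Agent.P275SO.Abs

/-!
# Flabby and c-soft sheaves: cut-offs and splitting
-/

open CategoryTheory TopologicalSpace Opposite Set P275S

noncomputable section

namespace Vale.Agent.P275SO

variable {k : Type} [Field k] {X Y : TopCat.{0}} {F : Sh k X}

/-- Every section extends to a global section. -/
def Flabby (F : Sh k X) : Prop := ∀ (U : Opens X) (s : sec F U), ∃ t : sec F ⊤, res F le_top t = s

/-- Every section near a compact set extends to a global section. -/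
def CSoft (F : Sh k X) : Prop := ∀ (K : Set X) (U : Opens X), IsCompact K → K ⊆ U →
  ∀ s : sec F U, ∃ t : sec F ⊤, Disjoint K (supp (res F le_top t - s))

theorem Flabby.cSoft (h : Flabby F) : CSoft F := fun K U _ _ s => by
  obtain ⟨t, ht⟩ := h U s
  exact ⟨t, by simp [ht]⟩

theorem Flabby.ext (h : Flabby F) {U V : Opens X} (hV : V ≤ U) (s : sec F V) :
    ∃ t : sec F U, res F hV t = s := by
  obtain ⟨t, ht⟩ := h V s
  exact ⟨res F le_top t, by rw [res_res, ht]⟩

/-- The global sections that vanish near `x`. -/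
def gm (F : Sh k X) (x : X) : Submodule k (sec F ⊤) := suppIn F {x}ᶜ ⊤

theorem mem_gm {x : X} {s : sec F ⊤} : s ∈ gm F x ↔ x ∉ supp s := by
  rw [gm, mem_suppIn, subset_compl_singleton_iff]

theorem mem_N_gm {B : Set X} {s : sec F ⊤} : s ∈ N (gm F) B ↔ Disjoint B (supp s) := by
  simp only [mem_N, mem_gm, Set.disjoint_left]

theorem isOpen_gm (s : sec F ⊤) : IsOpen {x | s ∈ gm F x} := by
  simp only [mem_gm]
  exact (isClosed_supp s).isOpen_compl

/-- Two sections that agree near `x` have the same support near `x`. -/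
theorem mem_supp_congr {U : Opens X} {s t : sec F U} {x : X} (h : x ∉ supp (s - t)) :
    x ∈ supp s ↔ x ∈ supp t := by
  constructor
  · intro a
    exact ((supp_add (s - t) t) (by simpa using a)).resolve_left h
  · intro a
    exact ((supp_sub s (s - t)) (by simpa using a)).resolve_right h

theorem supp_sub_comm {U : Opens X} (s t : sec F U) : supp (s - t) = supp (t - s) := by
  rw [← supp_neg, neg_sub]

/-- The support of a section is closed in its domain. -/
theorem isCompact_inter_supp {U : Opens X} (s : sec F U) {K : Set X} (hK : IsCompact K)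
    (hU : K ⊆ U) : IsCompact (K ∩ supp s) := by
  have : K ∩ supp s = K \ (zer s : Set X) := by
    ext x
    exact ⟨fun h => ⟨h.1, fun a => a.2 h.2⟩, fun h => ⟨h.1, by
      by_contra a
      exact h.2 ⟨hU h.1, a⟩⟩⟩
  rw [this]
  exact hK.diff (zer s).2

/-- A section that is `s` on `W` and zero on `W'`. -/
theorem exists_glue_zero {U : Opens X} (s : sec F U) {W W' : Opens X} (hW : W ≤ U)
    (h : Disjoint (supp s) (W ⊓ W' : Opens X)) :
    ∃ t : sec F (W ⊔ W'), res F le_sup_left t = res F hW s ∧ res F le_sup_right t = 0 := by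
  refine glue₂ F le_sup_left le_sup_right le_rfl (res F hW s) 0 ?_
  rw [map_zero, res_res, res_eq_zero_iff]
  exact h

/-- The inclusion of the sections with support in `S`. -/
def gi (S : Set X) (F : Sh k X) : (GamS k S).obj F ⟶ F := (suppData S F).ι

theorem gi_inj (S : Set X) (U : Opens X) : Function.Injective (app (gi S F) U) :=
  (suppData S F).ι_injective U

theorem gi_mem {S : Set X} {U : Opens X} (s : sec ((GamS k S).obj F) U) :
    supp (app (gi S F) U s) ⊆ S := (suppData S F).ι_mem U s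

theorem exists_gi {S : Set X} {U : Opens X} (s : sec F U) (h : supp s ⊆ S) :
    ∃ t : sec ((GamS k S).obj F) U, app (gi S F) U t = s := (suppData S F).exists_ι h

theorem gi_nat {G : Sh k X} (S : Set X) (φ : F ⟶ G) (U : Opens X)
    (s : sec ((GamS k S).obj F) U) :
    app (gi S G) U (app ((GamS k S).map φ) U s) = app φ U (app (gi S F) U s) := rfl

theorem supp_app_of_inj {G : Sh k X} (φ : F ⟶ G) (h : ∀ V, Function.Injective (app φ V))
    {U : Opens X} (s : sec F U) : supp (app φ U s) = supp s :=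
  (supp_app φ s).antisymm fun x hx => ⟨hx.1, fun V hV hxV h0 => hx.2 V hV hxV (h V (by
    rw [app_res, h0, map_zero]))⟩

theorem supp_gi {S : Set X} {U : Opens X} (s : sec ((GamS k S).obj F) U) :
    supp s = supp (app (gi S F) U s) := (supp_app_of_inj _ (gi_inj S) s).symm

variable [T2Space X] [LocallyCompactSpace X]

/-- **Cut-off**: a section near a compact set `K` extends to a global section with compact support
in any neighbourhood of the part of the support that lies in `K`. -/
theorem CSoft.cut (h : CSoft F) {K : Set X} {U : Opens X} (hK : IsCompact K) (hU : K ⊆ U)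
    (s : sec F U) {V : Set X} (hV : IsOpen V) (hs : K ∩ supp s ⊆ V) :
    ∃ t : sec F ⊤, IsCompact (supp t) ∧ supp t ⊆ V ∧ Disjoint K (supp (res F le_top t - s)) := by
  have c := isCompact_inter_supp s hK hU
  obtain ⟨L, l1, l2, l3⟩ := exists_compact_between c (hV.inter U.2)
    (subset_inter hs (inter_subset_left.trans hU))
  obtain ⟨L', m1, m2, m3⟩ := exists_compact_between c isOpen_interior l2
  let W : Opens X := ⟨interior L', isOpen_interior⟩
  let W' : Opens X := ⟨L'ᶜ, m1.isClosed.isOpen_compl⟩ ⊔ zer s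
  have hW : W ≤ U := fun x hx => (l3 (interior_subset (m3 (interior_subset hx)))).2
  obtain ⟨σ, s1, s2⟩ := exists_glue_zero s (W' := W') hW (Set.disjoint_left.2 fun x hx hx' =>
    hx'.2.elim (fun a => a (interior_subset hx'.1)) fun a => a.2 hx)
  have fr : IsCompact (L \ interior L) := l1.diff isOpen_interior
  obtain ⟨t, ht⟩ := h (K ∪ L \ interior L) (W ⊔ W') (hK.union fr) (by
    rintro x (hx | hx)
    · by_cases a : x ∈ supp s
      · exact Or.inl (m2 ⟨hx, a⟩)
      · exact Or.inr (Or.inr ⟨hU hx, a⟩)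
    · exact Or.inr (Or.inl fun a => hx.2 (m3 a))) σ
  have z : ∀ x ∈ W', x ∉ supp σ := fun x hx a =>
    Set.disjoint_left.1 ((res_eq_zero_iff _ σ).1 s2) a hx
  have t0 : ∀ x ∈ K ∪ L \ interior L, x ∈ W' → x ∉ supp t := fun x hx hx' a => by
    refine z x hx' ((mem_supp_congr (Set.disjoint_left.1 ht hx)).1 ?_)
    rw [supp_res]
    exact ⟨a, Or.inr hx'⟩
  let O : Opens X := ⟨interior L, isOpen_interior⟩
  obtain ⟨u, u1, u2⟩ := ext_zero F (le_top : O ≤ ⊤) (res F le_top t) (C := L ∩ supp t)
    (l1.isClosed.inter (isClosed_supp t))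
    (by rw [supp_res]; exact fun x hx => ⟨interior_subset hx.2, hx.1⟩) (by
      rintro x ⟨⟨a, b⟩, -⟩
      by_contra e
      exact t0 x (Or.inr ⟨a, e⟩) (Or.inl fun a => e (m3 a)) b)
  rw [supp_res] at u2
  have u3 : supp u ⊆ L := by rw [u2]; exact fun x hx => interior_subset hx.2
  refine ⟨u, l1.of_isClosed_subset (isClosed_supp u) u3, fun x hx => (l3 (u3 hx)).1,
    Set.disjoint_left.2 fun x hx a => ?_⟩
  by_cases b : x ∈ supp s
  · have xW : x ∈ W := m2 ⟨hx, b⟩
    have xO : x ∈ O := l2 ⟨hx, b⟩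
    obtain ⟨T, hT, xT, e⟩ := (not_mem_supp (U := W ⊔ W') (Or.inl xW)).1
      (Set.disjoint_left.1 ht (Or.inl hx))
    refine a.2 (T ⊓ W ⊓ O) ((inf_le_left.trans inf_le_right).trans hW) ⟨⟨xT, xW⟩, xO⟩ ?_
    have e1 := congrArg (res F (inf_le_left.trans inf_le_left : T ⊓ W ⊓ O ≤ T)) e
    have e2 := congrArg (res F (inf_le_left.trans inf_le_right : T ⊓ W ⊓ O ≤ W)) s1
    have e3 := congrArg (res F (inf_le_right : T ⊓ W ⊓ O ≤ O)) u1
    simp only [map_sub, res_res, map_zero] at e1 e2 e3 ⊢
    rw [e3, ← e2, e1]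
  · rcases supp_sub _ _ a with e | e
    · rw [supp_res, u2] at e
      exact t0 x (Or.inl hx) (Or.inr ⟨hU hx, b⟩) e.1.1
    · exact b e

theorem CSoft.cut_top (h : CSoft F) {K : Set X} (hK : IsCompact K) (s : sec F ⊤) {V : Set X}
    (hV : IsOpen V) (hs : K ∩ supp s ⊆ V) :
    ∃ t : sec F ⊤, IsCompact (supp t) ∧ supp t ⊆ V ∧ Disjoint K (supp (t - s)) := by
  simpa using h.cut (U := ⊤) hK (subset_univ _) s hV hs

theorem CSoft.spl (h : CSoft F) : Spl (gm F) := by
  intro B B' hB hB' s hs
  rw [mem_N_gm] at hs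
  obtain ⟨t, -, t2, t3⟩ := h.cut_top hB s hB'.isClosed.isOpen_compl
    fun x hx a => Set.disjoint_left.1 hs ⟨hx.1, a⟩ hx.2
  exact ⟨s - t, mem_N_gm.2 (by rwa [supp_sub_comm]), t,
    mem_N_gm.2 (Set.disjoint_left.2 fun x hx a => t2 a hx), by abel⟩

/-- Extension by zero preserves c-soft sheaves. -/
theorem CSoft.gamS_open (h : CSoft F) {S : Set X} (hS : IsOpen S) : CSoft ((GamS k S).obj F) := by
  intro K U hK hU s
  obtain ⟨t, -, t2, t3⟩ := h.cut hK hU (app (gi S F) U s) hS fun x hx => gi_mem s hx.2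
  obtain ⟨u, rfl⟩ := exists_gi t t2
  refine ⟨u, ?_⟩
  rw [supp_gi, map_sub, app_res]
  exact t3

omit [T2Space X] [LocallyCompactSpace X] in
/-- Sections with support in a closed set of a flabby sheaf form a flabby sheaf. -/
theorem Flabby.gamS_closed (h : Flabby F) {S : Set X} (hS : IsClosed S) :
    Flabby ((GamS k S).obj F) := by
  intro U s
  let W : Opens X := ⟨Sᶜ, hS.isOpen_compl⟩
  obtain ⟨σ, s1, s2⟩ := exists_glue_zero (app (gi S F) U s) (W' := W) le_rfl
    (Set.disjoint_left.2 fun x hx hx' => hx'.2 (gi_mem s hx))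
  obtain ⟨t, ht⟩ := h _ σ
  have t2 : supp t ⊆ S := fun x hx => by
    by_contra a
    have : res F (le_top : W ≤ ⊤) t = 0 := by rw [← s2, ← ht, res_res]
    exact Set.disjoint_left.1 ((res_eq_zero_iff _ t).1 this) hx a
  obtain ⟨u, rfl⟩ := exists_gi t t2
  refine ⟨u, gi_inj S U ?_⟩
  rw [res_self, ← ht, res_res] at s1
  rw [app_res, s1]

omit [T2Space X] [LocallyCompactSpace X] in
theorem Flabby.push (h : Flabby F) (f : X ⟶ Y) : Flabby ((push k f).obj F) := fun U s =>
  h ((Opens.map f).obj U) s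

end Vale.Agent.P275SO
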